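import Vale.Agent.P092.SD.Defs

/-!
P092, Team D: the source side of KEY and (I1): frames, commutations, the trace count.
-/

set_option linter.all false

open scoped InnerProductSpace ENNReal LinearAlgebra.Projectivization Matrix
open Filter Topology ContinuousLinearMap MeasureTheory TopologicalSpace

namespace Vale.Agent.P092.H632.SD

open Vale.Agent.P092.SD
open Vale.Agent.P092.RC (Cm TRN Moore Pic)
open Vale.Agent.P092.H820 (inc3)

section geo

variable {k : Type} [NontriviallyNormedField k]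

theorem pt_surj (x : PP k) : ∃ (v : Fin 3 → k) (hv : v ≠ 0), x = pt k v hv := by
  obtain ⟨v, rfl⟩ := H820.pj_surj x
  exact ⟨v.1, v.2, rfl⟩

theorem pt_eq {v w : Fin 3 → k} (hv : v ≠ 0) (hw : w ≠ 0) {c : k} (hc : c ≠ 0)
    (h : c • w = v) : pt k v hv = pt k w hw :=
  (Projectivization.mk_eq_mk_iff k v w hv hw).mpr ⟨Units.mk0 c hc, h⟩

theorem inc_pt {v w : Fin 3 → k} (hv : v ≠ 0) (hw : w ≠ 0) :
    (pt k v hv, pt k w hw) ∈ inc3 ↔ v ⬝ᵥ w = 0 := Iff.rfl

theorem mulVec_ne (g : G3 k) {v : Fin 3 → k} (hv : v ≠ 0) : g.1 *ᵥ v ≠ 0 := by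
  intro h
  apply hv
  have h1 : (g⁻¹).1 *ᵥ (g.1 *ᵥ v) = v := by
    rw [Matrix.mulVec_mulVec, ← Matrix.SpecialLinearGroup.coe_mul, inv_mul_cancel,
      Matrix.SpecialLinearGroup.coe_one, Matrix.one_mulVec]
  rw [← h1, h, Matrix.mulVec_zero]

theorem smul_pt (g : G3 k) {v : Fin 3 → k} (hv : v ≠ 0) :
    g • pt k v hv = pt k (g.1 *ᵥ v) (mulVec_ne g hv) := rfl

theorem single_ne (i : Fin 3) : (Pi.single i (1 : k) : Fin 3 → k) ≠ 0 := by
  intro h
  have := congrFun h i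
  simp at this

/-- a matrix with the eigenvector `e_i` fixes `ept i` -/
theorem fix_ept {g : G3 k} {i : Fin 3} {c : k} (h : g.1 *ᵥ Pi.single i 1 = c • Pi.single i 1) :
    g • ept k i = ept k i := by
  have hc : c ≠ 0 := by
    rintro rfl
    rw [zero_smul] at h
    exact mulVec_ne g (single_ne i) h
  have h1 : g • ept k i = pt k (g.1 *ᵥ Pi.single i 1) (mulVec_ne g (single_ne i)) := rfl
  rw [h1]
  exact pt_eq _ _ hc h.symm

theorem bw_fix (w : kˣ) (i : Fin 3) : bw w • ept k i = ept k i := by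
  fin_cases i
  · refine fix_ept (c := ((w⁻¹ : kˣ) : k) ^ 2) ?_
    ext j
    fin_cases j <;> simp [bw, Matrix.diagonal, Matrix.mulVec_single, Matrix.col]
  · refine fix_ept (c := (w : k)) ?_
    ext j
    fin_cases j <;> simp [bw, Matrix.diagonal, Matrix.mulVec_single, Matrix.col]
  · refine fix_ept (c := (w : k)) ?_
    ext j
    fin_cases j <;> simp [bw, Matrix.diagonal, Matrix.mulVec_single, Matrix.col]

theorem tau_apply (g : G3 k) : (tau k g).1 = (g⁻¹).1ᵀ := rfl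

theorem tau_tau (g : G3 k) : tau k (tau k g) = g := by
  apply Subtype.ext
  have h1 : (tau k g)⁻¹ = tau k g⁻¹ := (map_inv _ _).symm
  rw [tau_apply, h1, tau_apply, inv_inv, Matrix.transpose_transpose]

theorem bw_inv (w : kˣ) : (bw w)⁻¹ = bw w⁻¹ := by
  rw [inv_eq_iff_mul_eq_one]
  apply Subtype.ext
  rw [Matrix.SpecialLinearGroup.coe_mul, Matrix.SpecialLinearGroup.coe_one]
  change Matrix.diagonal _ * Matrix.diagonal _ = 1
  rw [Matrix.diagonal_mul_diagonal, ← Matrix.diagonal_one]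
  congr 1
  ext i
  fin_cases i
  · simp
  · simp
  · simp

theorem tau_bw (w : kˣ) : tau k (bw w) = bw w⁻¹ := by
  apply Subtype.ext
  rw [tau_apply, bw_inv]
  exact Matrix.diagonal_transpose _

theorem un_zero : un (0 : k) = 1 := by
  apply Subtype.ext
  simp [un, Matrix.SpecialLinearGroup.transvection, Matrix.transvection]

theorem un_add (s t : k) : un (s + t) = un s * un t := by
  apply Subtype.ext
  rw [Matrix.SpecialLinearGroup.coe_mul]
  exact (Matrix.transvection_mul_transvection_same (0 : Fin 3) 1 (by decide) s t).symm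

theorem un_inv (s : k) : (un s)⁻¹ = un (-s) := by
  rw [inv_eq_iff_mul_eq_one, ← un_add, add_neg_cancel, un_zero]

theorem un_fix0 (s : k) : un s • ept k 0 = ept k 0 := by
  refine fix_ept (c := 1) ?_
  ext j
  fin_cases j <;> simp [un, Matrix.SpecialLinearGroup.transvection, Matrix.transvection,
    Matrix.add_mulVec, Matrix.single]

theorem un_fix2 (s : k) : un s • ept k 2 = ept k 2 := by
  refine fix_ept (c := 1) ?_
  ext j
  fin_cases j <;> simp [un, Matrix.SpecialLinearGroup.transvection, Matrix.transvection,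
    Matrix.add_mulVec, Matrix.single]

theorem tau_un_fix2 (s : k) : tau k (un s) • ept k 2 = ept k 2 := by
  refine fix_ept (c := 1) ?_
  rw [tau_apply, un_inv]
  ext j
  fin_cases j <;> simp [un, Matrix.SpecialLinearGroup.transvection, Matrix.transvection,
    Matrix.add_mulVec, Matrix.single]

/-- three vectors as the columns of a matrix of determinant one -/
theorem exists_mat {v₀ v₂ φ : Fin 3 → k} (h0 : v₀ ⬝ᵥ φ = 0) (h2 : v₂ ⬝ᵥ φ ≠ 0) (hv : v₀ ≠ 0) :
    ∃ g : G3 k, g.1 *ᵥ Pi.single 0 1 = v₀ ∧ g.1 *ᵥ Pi.single 2 1 = v₂ ∧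
      (tau k g).1 *ᵥ Pi.single 2 1 = (v₂ ⬝ᵥ φ)⁻¹ • φ := by
  set ψ := crossProduct v₂ v₀ with hψ
  have hc : crossProduct φ ψ ≠ 0 := by
    intro hc
    have h3 : crossProduct φ ψ = (φ ⬝ᵥ v₀) • v₂ - (φ ⬝ᵥ v₂) • v₀ := by
      rw [hψ]
      ext i
      fin_cases i <;> simp [crossProduct, dotProduct, Fin.sum_univ_three] <;> ring
    rw [hc, dotProduct_comm φ v₀, h0, zero_smul, zero_sub, eq_comm, neg_eq_zero,
      dotProduct_comm] at h3
    exact (smul_ne_zero h2 hv) h3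
  obtain ⟨i, hi⟩ : ∃ i, crossProduct φ ψ i ≠ 0 := by
    by_contra hcon
    push Not at hcon
    exact hc (funext hcon)
  set x : Fin 3 → k := Pi.single i (crossProduct φ ψ i)⁻¹ with hx
  set v₁ := crossProduct x φ with hv1
  have h1 : v₁ ⬝ᵥ φ = 0 := by
    rw [hv1]
    simp only [crossProduct, dotProduct, Fin.sum_univ_three]
    simp
    ring
  have hdet : v₁ ⬝ᵥ ψ = 1 := by
    have e1 : v₁ ⬝ᵥ ψ = x ⬝ᵥ crossProduct φ ψ := by
      rw [hv1]
      simp only [crossProduct, dotProduct, Fin.sum_univ_three]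
      simp
      ring
    rw [e1, hx, single_dotProduct, inv_mul_cancel₀ hi]
  have hdet' : Matrix.det (Matrix.of ![v₀, v₁, v₂])ᵀ = 1 := by
    rw [Matrix.det_transpose]
    have e1 : Matrix.det (Matrix.of ![v₀, v₁, v₂]) = v₀ ⬝ᵥ crossProduct v₁ v₂ :=
      (triple_product_eq_det _ _ _).symm
    rw [e1, triple_product_permutation]
    exact hdet
  let g : G3 k := ⟨(Matrix.of ![v₀, v₁, v₂])ᵀ, hdet'⟩
  have hg : ∀ j : Fin 3, g.1 *ᵥ Pi.single j 1 = ![v₀, v₁, v₂] j := by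
    intro j
    rw [Matrix.mulVec_single_one]
    rfl
  have hgt : g.1ᵀ *ᵥ φ = (v₂ ⬝ᵥ φ) • Pi.single 2 1 := by
    have e1 : g.1ᵀ = Matrix.of ![v₀, v₁, v₂] := Matrix.transpose_transpose _
    rw [e1]
    ext j
    fin_cases j
    · change v₀ ⬝ᵥ φ = _
      rw [h0]; simp
    · change v₁ ⬝ᵥ φ = _
      rw [h1]; simp
    · change v₂ ⬝ᵥ φ = _
      simp
  refine ⟨g, hg 0, hg 2, ?_⟩
  have e2 : (tau k g).1 *ᵥ (g.1ᵀ *ᵥ φ) = φ := by
    rw [tau_apply, Matrix.mulVec_mulVec, ← Matrix.transpose_mul,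
      ← Matrix.SpecialLinearGroup.coe_mul, mul_inv_cancel, Matrix.SpecialLinearGroup.coe_one,
      Matrix.transpose_one, Matrix.one_mulVec]
  rw [hgt, Matrix.mulVec_smul] at e2
  rw [← e2, smul_smul]
  conv_rhs => rw [e2]
  rw [inv_mul_cancel₀ h2, one_smul]

/-- **The frame of KEY.** -/
theorem exists_g3 {a b l : PP k} (ha : (a, l) ∈ inc3 (k := k)) (hb : (b, l) ∉ inc3 (k := k)) :
    ∃ g : G3 k, g • ept k 0 = a ∧ g • ept k 2 = b ∧ tau k g • ept k 2 = l := by
  obtain ⟨v₀, hv₀, rfl⟩ := pt_surj a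
  obtain ⟨v₂, hv₂, rfl⟩ := pt_surj b
  obtain ⟨φ, hφ, rfl⟩ := pt_surj l
  rw [inc_pt] at ha hb
  obtain ⟨g, h0, h2, h3⟩ := exists_mat ha hb hv₀
  refine ⟨g, ?_, ?_, ?_⟩
  · exact pt_eq _ _ one_ne_zero (by rw [one_smul]; exact h0.symm)
  · exact pt_eq _ _ one_ne_zero (by rw [one_smul]; exact h2.symm)
  · exact pt_eq _ _ (inv_ne_zero hb) h3.symm

/-- **The frame of (I1).** -/
theorem exists_g2 {a l : PP k} (ha : (a, l) ∈ inc3 (k := k)) :
    ∃ g : G3 k, g • ept k 0 = a ∧ tau k g • ept k 2 = l := by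
  obtain ⟨φ, hφ, rfl⟩ := pt_surj l
  obtain ⟨i, hi⟩ : ∃ i, φ i ≠ 0 := by
    by_contra hcon
    push Not at hcon
    exact hφ (funext hcon)
  obtain ⟨g, h0, -, h3⟩ := exists_g3 (b := ept k i) ha (by
    intro h
    have h1 : (Pi.single i 1 : Fin 3 → k) ⬝ᵥ φ = 0 := h
    rw [single_dotProduct, one_mul] at h1
    exact hi h1)
  exact ⟨g, h0, h3⟩

end geo

section ops

variable {k : Type} [NontriviallyNormedField k] [ProperSpace k] {Γ K : Type} [Group Γ]
  [NormedAddCommGroup K] [InnerProductSpace ℂ K] [CompleteSpace K]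
  {π : G3 k →* (K →L[ℂ] K)} {lam : Γ →* (K →L[ℂ] K)} {W : Set (K →L[ℂ] K)} {Ω : K}
  {m : Set Γ → (K →L[ℂ] K)} {q : Γ →* G3 k} {w : kˣ} {E F : PP k → (CP k →⋆ₐ[ℂ] (K →L[ℂ] K))}

theorem com_of_fix (hE : EFam w π lam W m q E) {b : PP k} {p : G3 k} (hp : p • b = b) (f : CP k) :
    Commute (E b f) (π p) := by
  have h1 := hE.pcov p b f
  rw [hp] at h1
  have h2 : π p⁻¹ * π p = 1 := by rw [← map_mul, inv_mul_cancel, map_one]
  calc E b f * π p = π p * E b f * π p⁻¹ * π p := by rw [h1]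
    _ = π p * E b f := by rw [mul_assoc, h2, mul_one]

theorem com_of_fix' (hF : EFam w (π.comp (tau k)) lam W m ((tau k).comp q) F) {l : PP k} {p : G3 k}
    (hp : tau k p • l = l) (f : CP k) : Commute (F l f) (π p) := by
  have h1 := com_of_fix hF hp f
  change Commute (F l f) (π (tau k (tau k p))) at h1
  rwa [tau_tau] at h1

theorem fix_conj {g x : G3 k} {a : PP k} (hx : x • a = a) : (g * x * g⁻¹) • (g • a) = g • a := by
  rw [mul_smul, inv_smul_smul, mul_smul, hx]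

theorem bwN_fix (w : kˣ) (N : ℕ) (i : Fin 3) : bw w ^ N • ept k i = ept k i :=
  (MulAction.stabilizer (G3 k) (ept k i)).pow_mem (bw_fix w i) N

theorem tau_bwN_fix (w : kˣ) (N : ℕ) (i : Fin 3) : tau k (bw w ^ N) • ept k i = ept k i := by
  rw [map_pow, tau_bw]
  exact bwN_fix _ N i

/-- `E b f` commutes with the wall element and with the root group, `b = g [e_0]` or `g [e_2]`. -/
theorem com_bw (hE : EFam w π lam W m q E) (g : G3 k) (w' : kˣ) (N : ℕ) (i : Fin 3) (f : CP k) :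
    Commute (E (g • ept k i) f) (π (g * bw w' ^ N * g⁻¹)) :=
  com_of_fix hE (fix_conj (bwN_fix w' N i)) f

theorem com_un0 (hE : EFam w π lam W m q E) (g : G3 k) (s : k) (f : CP k) :
    Commute (E (g • ept k 0) f) (π (g * un s * g⁻¹)) :=
  com_of_fix hE (fix_conj (un_fix0 s)) f

theorem com_un2 (hE : EFam w π lam W m q E) (g : G3 k) (s : k) (f : CP k) :
    Commute (E (g • ept k 2) f) (π (g * un s * g⁻¹)) :=
  com_of_fix hE (fix_conj (un_fix2 s)) f

theorem com_bw' (hF : EFam w (π.comp (tau k)) lam W m ((tau k).comp q) F) (g : G3 k) (w' : kˣ)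
    (N : ℕ) (i : Fin 3) (f : CP k) :
    Commute (F (tau k g • ept k i) f) (π (g * bw w' ^ N * g⁻¹)) := by
  refine com_of_fix' hF ?_ f
  rw [map_mul, map_mul, map_inv]
  exact fix_conj (tau_bwN_fix w' N i)

theorem com_un' (hF : EFam w (π.comp (tau k)) lam W m ((tau k).comp q) F) (g : G3 k) (s : k)
    (f : CP k) : Commute (F (tau k g • ept k 2) f) (π (g * un s * g⁻¹)) := by
  refine com_of_fix' hF ?_ f
  rw [map_mul, map_mul, map_inv]
  exact fix_conj (tau_un_fix2 s)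

theorem m_empty (h : Ms lam W Ω m) : m ∅ = 0 := by
  have h1 := h.inf Set.univ Set.univᶜ
  rw [Set.inter_compl_self, h.compl, mul_sub, mul_one, ← h.inf, Set.inter_self, sub_self] at h1
  exact h1

theorem lam_inv (lam : Γ →* (K →L[ℂ] K)) (γ : Γ) : lam γ⁻¹ * lam γ = 1 := by
  rw [← map_mul, inv_mul_cancel, map_one]

open Classical in
/-- `m D` on the basis vectors -/
theorem m_lam (h : Ms lam W Ω m) (D : Set Γ) (γ : Γ) :
    m D (lam γ Ω) = if γ ∈ D then lam γ Ω else 0 := by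
  have h1 := h.cov γ {1}
  have h2 : (fun x => γ * x) '' ({1} : Set Γ) = {γ} := by simp
  rw [h2] at h1
  have h3 : m {γ} (lam γ Ω) = lam γ Ω := by
    rw [← h1]
    change lam γ (m {1} (lam γ⁻¹ (lam γ Ω))) = _
    have h4 : lam γ⁻¹ (lam γ Ω) = Ω := congrArg (fun T : K →L[ℂ] K => T Ω) (lam_inv lam γ)
    rw [h4, h.om]
  have h4 : m D (lam γ Ω) = m (D ∩ {γ}) (lam γ Ω) := by
    rw [h.inf]
    change _ = m D (m {γ} (lam γ Ω))
    rw [h3]
  rw [h4]
  by_cases hγ : γ ∈ D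
  · rw [if_pos hγ, Set.inter_eq_right.mpr (by simpa using hγ), h3]
  · rw [if_neg hγ]
    have h5 : D ∩ {γ} = ∅ := by
      ext x
      simp only [Set.mem_inter_iff, Set.mem_singleton_iff, Set.mem_empty_iff_false, iff_false,
        not_and]
      rintro hx rfl
      exact hγ hx
    rw [h5, m_empty h]
    rfl

theorem cm_mul {S T : K →L[ℂ] K} (hS : Cm W S) (hT : Cm W T) : Cm W (S * T) := fun x hx => by
  rw [mul_assoc, hT x hx, ← mul_assoc, hS x hx, mul_assoc]

theorem cm_adj (hW : ∀ x ∈ W, adjoint x ∈ W) {T : K →L[ℂ] K} (hT : Cm W T) :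
    Cm W (adjoint T) := fun x hx => by
  have h1 : star (T * star x) = star (star x * T) := congrArg star (hT _ (hW x hx))
  rw [star_mul, star_mul, star_star] at h1
  exact h1.symm

open Classical in
/-- the trace of `m D * B` -/
theorem trn_mD (hP : Pic π lam W Ω) (h : Ms lam W Ω m) {B : K →L[ℂ] K} (hB : Cm W B)
    (D : Set Γ) : TRN lam Ω (m D * B) = ∑' γ : D, ‖adjoint B (lam γ Ω)‖ₑ ^ 2 := by
  have h1 := hP.tr_adj (m D * B) (cm_mul (h.cm D) hB)
  have h2 : adjoint (m D * B) = adjoint B * m D := by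
    rw [← star_eq_adjoint, star_mul, star_eq_adjoint, star_eq_adjoint, h.adj]
  rw [← h1, h2]
  unfold TRN
  rw [tsum_subtype D (fun γ => ‖adjoint B (lam γ Ω)‖ₑ ^ 2)]
  refine tsum_congr fun γ => ?_
  change ‖adjoint B (m D (lam γ Ω))‖ₑ ^ 2 = _
  rw [m_lam h]
  by_cases hγ : γ ∈ D
  · rw [if_pos hγ, Set.indicator_of_mem hγ]
  · rw [if_neg hγ, Set.indicator_of_notMem hγ]
    simp

theorem star_calc (E : CP k →⋆ₐ[ℂ] (K →L[ℂ] K)) (f : CP k) : adjoint (E f) = E (star f) := by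
  rw [← star_eq_adjoint, map_star]

theorem lam_unit (hP : Pic π lam W Ω) (γ : Γ) (v : K) : ‖lam γ v‖ = ‖v‖ := by
  have h1 : ⟪lam γ v, lam γ v⟫_ℂ = ⟪v, v⟫_ℂ := by
    rw [← adjoint_inner_right, hP.adjL]
    have h2 : lam γ⁻¹ (lam γ v) = v := congrArg (fun T : K →L[ℂ] K => T v) (lam_inv lam γ)
    rw [h2]
  rw [inner_self_eq_norm_sq_to_K, inner_self_eq_norm_sq_to_K] at h1
  have h2 : ‖lam γ v‖ ^ 2 = ‖v‖ ^ 2 := by exact_mod_cast h1
  exact (pow_left_inj₀ (norm_nonneg _) (norm_nonneg _) two_ne_zero).mp h2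

/-- covariance in the form `T (lam γ v) = lam γ (T^γ v)` -/
theorem cov_apply (hE : EFam w π lam W m q E) (γ : Γ) (a : PP k) (f : CP k) (v : K) :
    E a f (lam γ v) = lam γ (E a (act (q γ⁻¹) f) v) := by
  have h1 := hE.cov γ⁻¹ a f
  rw [inv_inv] at h1
  rw [← h1]
  change _ = lam γ (lam γ⁻¹ (E a f (lam γ v)))
  have h2 : ∀ u, lam γ (lam γ⁻¹ u) = u := fun u => by
    have h3 : lam γ * lam γ⁻¹ = 1 := by rw [← map_mul, mul_inv_cancel, map_one]
    exact congrArg (fun T : K →L[ℂ] K => T u) h3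
  rw [h2]

/-- **The trace count of KEY.** -/
theorem trn_eq (hP : Pic π lam W Ω) (h : Ms lam W Ω m) (hE : EFam w π lam W m q E)
    (hF : EFam w (π.comp (tau k)) lam W m ((tau k).comp q) F) (b l : PP k) (f h' : CP k)
    (D : Set Γ) : TRN lam Ω (m D * (E b f * F l h')) =
      ∑' γ : D, ‖F l (act (tau k (q (γ : Γ)⁻¹)) (star h')) (E b (act (q (γ : Γ)⁻¹) (star f)) Ω)‖ₑ ^ 2 := by
  rw [trn_mD hP h (cm_mul (hE.cm b f) (hF.cm l h'))]
  refine tsum_congr fun γ => ?_
  have h1 : adjoint (E b f * F l h') = F l (star h') * E b (star f) := by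
    rw [← star_eq_adjoint, star_mul, star_eq_adjoint, star_eq_adjoint, star_calc, star_calc]
  rw [h1]
  change ‖F l (star h') (E b (star f) (lam γ Ω))‖ₑ ^ 2 = _
  rw [cov_apply hE, cov_apply hF, ← ofReal_norm_eq_enorm, lam_unit hP, ofReal_norm_eq_enorm]
  rfl

end ops

end Vale.Agent.P092.H632.SD
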